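import Vale.Agent.P235.Apex

namespace Vale.Agent.Results.P235.ApexExtension

open Vale.Agent.P235

/-- Deleting a vertex set `A` changes the L1 distortion by at most an additive `O(log |A|)`, up to
an absolute factor; in particular graphs with feedback vertex number `k` have distortion
`O(1 + log k)`. -/
theorem result :
    ∃ C : ℝ, ∀ (V : Type) [Fintype V] (G : SimpleGraph V) (ℓ : Sym2 V → ℝ),
      G.Connected → (∀ e ∈ G.edgeSet, 0 < ℓ e) → ∀ A : Finset V, A.Nonempty →
        (∀ K : ℝ, 1 ≤ K →
          (∀ c : (G.induce (↑A : Set V)ᶜ).ConnectedComponent, EmbedsL1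
            (fun x y : c.supp =>
              gdist (G.induce (↑A : Set V)ᶜ) (fun e => ℓ (e.map Subtype.val)) x y) K) →
          EmbedsL1 (gdist G ℓ) (C * (K + Nat.log 2 A.card))) ∧
        ((G.induce (↑A : Set V)ᶜ).IsAcyclic →
          EmbedsL1 (gdist G ℓ) (C * (1 + Nat.log 2 A.card))) :=
  ⟨3000, fun _ _ _ _ hG hℓ A hA =>
    ⟨fun _ hK h => apex_of_components hℓ hG A hA hK h, apex_of_forest hℓ hG A hA⟩⟩

end Vale.Agent.Results.P235.ApexExtension
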