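import Vale.Agent.P235.Ladder.Main

namespace Vale.Agent.Results.P235.LadderFree

open Vale.Agent.P235 Vale.Agent.P235.Ladder

/-- For every `k`, all finite connected graphs without the `2 × k` ladder as a minor embed into L1
with distortion bounded by a constant depending only on `k`. -/
theorem result :
    ∀ k : ℕ, ∃ C : ℝ, ∀ (V : Type) [Finite V] (G : SimpleGraph V) (ℓ : Sym2 V → ℝ),
      G.Connected → (∀ e ∈ G.edgeSet, 0 < ℓ e) → ¬ HasMinor G (ladder k) →
        EmbedsL1 (gdist G ℓ) C :=
  embeds_of_no_ladder

end Vale.Agent.Results.P235.LadderFree
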